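import Claimed.Agent.R309.Defs

/-!
# Row 309, S5 (Sec 5 of the paper, `boundary-topology.tex`), part 2: `Cech0 C.B` (Prop 5.3).  Owner helper29.  Prefix `s5_`.

Label the vertices by members of the cover (Lebesgue number), `α(u v) = d (lab u) (lab v)` has finitely supported coboundary,
`H2c` removes it, `SC (ZMod 2)` gives a potential `φ`, and `φ u + d i (lab u)` is locally constant near every point of `U i`
by the near-path property.
-/

set_option autoImplicit false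

namespace Claimed.Agent.R309

open Filter Topology Set

variable {Γ : Type} [Group Γ] {𝔖 : GenSet Γ} (C : Cpt 𝔖)

theorem s5_isOpen_range : IsOpen (range C.ι) := by
  rw [← iUnion_singleton_eq_range]
  exact isOpen_iUnion fun g => C.ι_isolated g

theorem s5_isClosed_B : IsClosed C.B := (s5_isOpen_range C).isClosed_compl

theorem s5_ι_notMem_B (v : Γ) : C.ι v ∉ C.B := fun h => h (mem_range_self v)

/-- a closed set missing `B` contains finitely many vertices -/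
theorem s5_finite_of_isClosed {A : Set C.X} (hA : IsClosed A) (hAB : Disjoint A C.B) :
    {v : Γ | C.ι v ∈ A}.Finite := by
  have hsub : A ⊆ ⋃ v : Γ, ({C.ι v} : Set C.X) := by
    intro y hy
    have : y ∈ range C.ι := by
      by_contra h
      exact Set.disjoint_left.mp hAB hy h
    obtain ⟨v, rfl⟩ := this
    exact mem_iUnion.mpr ⟨v, rfl⟩
  obtain ⟨t, ht⟩ := hA.isCompact.elim_finite_subcover (fun v => ({C.ι v} : Set C.X))
    (fun v => C.ι_isolated v) hsub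
  refine t.finite_toSet.subset ?_
  intro v hv
  obtain ⟨w, hw, hvw⟩ := mem_iUnion₂.mp (ht hv)
  have : v = w := C.ι_inj hvw
  rw [this]
  exact hw

/-- all but finitely many vertices are `ε`-close to the boundary -/
theorem s5_eventually_near {ε : ℝ} (hε : 0 < ε) :
    ∀ᶠ v : Γ in cofinite, ∃ x : C.B, dist (C.ι v) x.1 < ε := by
  have hfin := s5_finite_of_isClosed C (A := (Metric.thickening ε C.B)ᶜ)
    Metric.isOpen_thickening.isClosed_compl
    (Set.disjoint_left.mpr fun y hy hyB => hy (Metric.self_subset_thickening hε _ hyB))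
  rw [Filter.eventually_cofinite]
  refine hfin.subset ?_
  intro v hv hmem
  obtain ⟨z, hz, hd⟩ := Metric.mem_thickening_iff.mp hmem
  exact hv ⟨⟨z, hz⟩, hd⟩

/-- labelling of the vertices by members of a finite cover of `B` -/
theorem s5_label (hne : C.B.Nonempty) {n : ℕ} (U : Fin n → Set C.B) (hU : ∀ i, IsOpen (U i))
    (hcov : (⋃ i, U i) = univ) :
    ∃ δ > 0, ∃ lab : Γ → Fin n, ∀ (u : Γ) (x : C.B), dist (C.ι u) x.1 < δ → x ∈ U (lab u) := by
  have i1 : CompactSpace C.B := isCompact_iff_compactSpace.mp (s5_isClosed_B C).isCompact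
  obtain ⟨δ₀, hδ₀, hleb⟩ := lebesgue_number_lemma_of_metric (isCompact_univ (X := C.B)) hU
    (by rw [hcov])
  obtain ⟨x₀, hx₀⟩ := hne
  have hi₀ : ∃ i₀ : Fin n, True := by
    have : (⟨x₀, hx₀⟩ : C.B) ∈ ⋃ i, U i := by rw [hcov]; trivial
    obtain ⟨i, _⟩ := mem_iUnion.mp this
    exact ⟨i, trivial⟩
  obtain ⟨i₀, _⟩ := hi₀
  have key : ∀ u : Γ, ∃ i : Fin n, ∀ x : C.B, dist (C.ι u) x.1 < δ₀ / 2 → x ∈ U i := by
    intro u
    by_cases h : ∃ b : C.B, dist (C.ι u) b.1 < δ₀ / 2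
    · obtain ⟨b, hb⟩ := h
      obtain ⟨i, hi⟩ := hleb b trivial
      refine ⟨i, fun x hx => hi ?_⟩
      rw [Metric.mem_ball, Subtype.dist_eq]
      calc dist x.1 b.1 ≤ dist x.1 (C.ι u) + dist (C.ι u) b.1 := dist_triangle _ _ _
        _ < δ₀ / 2 + δ₀ / 2 := by rw [dist_comm x.1]; exact add_lt_add hx hb
        _ = δ₀ := by ring
    · exact ⟨i₀, fun x hx => absurd ⟨x, hx⟩ h⟩
  choose lab hlab using key
  exact ⟨δ₀ / 2, by positivity, lab, hlab⟩

/-- **Proposition 5.3.** -/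
theorem s5_cech0 (hG : GroupHyp 𝔖) (hC : C.Good) : Cech0 C.B := by
  classical
  intro n U d hU hcov hd0 hds hdc
  obtain ⟨δ, hδ, lab, hlab⟩ := s5_label C hC.conn.nonempty U hU hcov
  set α : 𝔖.Edge → ZMod 2 := fun e => d (lab (esrc e)) (lab (etgt e)) with hα
  -- the coboundary of `α` has finite support
  have hev : ∀ᶠ g : Γ in cofinite, (∃ x : C.B, dist (C.ι g) x.1 < δ / 2) ∧
      ∀ s ∈ 𝔖.S, dist (C.ι g) (C.ι (g * s)) < δ / 2 := by
    refine (s5_eventually_near C (half_pos hδ)).and ?_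
    rw [Filter.eventually_all_finset]
    intro s _
    exact (hC.rightMove s).eventually (Iio_mem_nhds (half_pos hδ))
  have hfin : {t : 𝔖.Tri | cobd α t ≠ 0}.Finite := by
    have h1 : {g : Γ | ¬ ((∃ x : C.B, dist (C.ι g) x.1 < δ / 2) ∧
      ∀ s ∈ 𝔖.S, dist (C.ι g) (C.ι (g * s)) < δ / 2)}.Finite := Filter.eventually_cofinite.mp hev
    have h2 := (h1.prod (finite_univ (α := {s : Γ // s ∈ 𝔖.S} × {s : Γ // s ∈ 𝔖.S}))).preimage
      (f := (Subtype.val : 𝔖.Tri → _)) Subtype.val_injective.injOn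
    refine h2.subset ?_
    rintro ⟨⟨g, s₁, s₂⟩, h⟩ ht
    refine ⟨?_, trivial⟩
    intro hg
    apply ht
    obtain ⟨⟨x, hx⟩, hs⟩ := hg
    have e1 : x ∈ U (lab g) := hlab g x (hx.trans (half_lt_self hδ))
    have tri : ∀ s ∈ 𝔖.S, dist (C.ι (g * s)) x.1 < δ := by
      intro s hs'
      calc dist (C.ι (g * s)) x.1 ≤ dist (C.ι (g * s)) (C.ι g) + dist (C.ι g) x.1 :=
            dist_triangle _ _ _
        _ < δ / 2 + δ / 2 := by rw [dist_comm (C.ι (g * s))]; exact add_lt_add (hs s hs') hx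
        _ = δ := by ring
    have e2 : x ∈ U (lab (g * s₁.1)) := hlab _ x (tri _ s₁.2)
    have e3 : x ∈ U (lab (g * (s₁.1 * s₂.1))) := hlab _ x (tri _ h)
    have h3 := hdc _ _ _ ⟨x, ⟨e1, e2⟩, e3⟩
    have h4 : ∀ a b c : ZMod 2, a + b + c = 0 → a + b - c = 0 := by decide
    simp only [cobd, hα, esrc, etgt]
    rw [mul_assoc]
    exact h4 _ _ _ h3
  obtain ⟨η, hη, hηα⟩ := hG.h2c α hfin
  have hβ : IsCocycle (fun e => α e - η e) := by
    intro g s₁ s₂ h
    have := hηα ⟨(g, s₁, s₂), h⟩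
    simp only [cobd] at this
    linear_combination -this
  obtain ⟨φ, hφ⟩ := hG.sc_two _ hβ
  set ψ : Fin n → Γ → ZMod 2 := fun i u => φ u + d i (lab u) with hψ
  -- local constancy
  have hloc : ∀ (i : Fin n) (x : C.B), x ∈ U i →
      ∃ V ∈ 𝓝 x.1, ∃ a : ZMod 2, ∀ u, C.ι u ∈ V → ψ i u = a := by
    intro i x hxi
    set F : Set C.X := C.ι '' (esrc '' Function.support η) with hF
    have hFfin : F.Finite := (hη.image _).image _
    have hxF : x.1 ∉ F := by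
      rintro ⟨v, _, hv⟩
      exact s5_ι_notMem_B C v (hv ▸ x.2)
    have hW : Metric.ball x.1 δ ∩ Fᶜ ∈ 𝓝 x.1 :=
      inter_mem (Metric.ball_mem_nhds _ hδ) (hFfin.isClosed.isOpen_compl.mem_nhds hxF)
    obtain ⟨V, hV, _, hpath⟩ := hC.nearPath x.1 x.2 _ hW
    refine ⟨V, hV, ?_⟩
    by_cases hex : ∃ u₀, C.ι u₀ ∈ V
    · obtain ⟨u₀, hu₀⟩ := hex
      refine ⟨ψ i u₀, fun u hu => ?_⟩
      have := hpath u₀ u hu₀ hu
      clear hu
      induction this with
      | refl => rfl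
      | @tail a b _ hstep ih =>
        obtain ⟨ha, hb, s, hs, rfl⟩ := hstep
        rw [← ih]
        have hη0 : η (a, ⟨s, hs⟩) = 0 := by
          by_contra hne
          exact ha.2 ⟨a, ⟨(a, ⟨s, hs⟩), hne, rfl⟩, rfl⟩
        have h1 := hφ (a, ⟨s, hs⟩)
        simp only [hη0, sub_zero, grad, hα, esrc, etgt] at h1
        have ea : x ∈ U (lab a) := hlab a x (Metric.mem_ball.mp ha.1)
        have eb : x ∈ U (lab (a * s)) := hlab _ x (Metric.mem_ball.mp hb.1)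
        have h2 := hdc _ _ _ ⟨x, ⟨hxi, ea⟩, eb⟩
        have h3 : ∀ pa pb p q r : ZMod 2, r = pb - pa → p + r + q = 0 → pb + q = pa + p := by
          decide
        exact h3 _ _ _ _ _ h1 h2
    · exact ⟨0, fun u hu => absurd ⟨u, hu⟩ hex⟩
  set Z' : Fin n × ZMod 2 → Set C.B := fun p =>
    {x : C.B | x ∈ U p.1 ∧ ∃ V ∈ 𝓝 x.1, ∀ u, C.ι u ∈ V → ψ p.1 u = p.2} with hZ'
  set e := Fintype.equivFin (Fin n × ZMod 2) with he
  refine ⟨Fintype.card (Fin n × ZMod 2), fun a => Z' (e.symm a), fun a => (e.symm a).1,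
    fun a => (e.symm a).2, ?_, ?_, ?_, ?_⟩
  · intro a
    rw [isOpen_iff_mem_nhds]
    rintro x ⟨hxU, V, hV, hVψ⟩
    obtain ⟨V', hV'V, hV'o, hxV'⟩ := mem_nhds_iff.mp hV
    have h1 : U (e.symm a).1 ∩ Subtype.val ⁻¹' V' ∈ 𝓝 x :=
      inter_mem ((hU _).mem_nhds hxU) ((hV'o.preimage continuous_subtype_val).mem_nhds hxV')
    refine mem_of_superset h1 ?_
    rintro y ⟨hyU, hyV⟩
    exact ⟨hyU, V, mem_of_superset (hV'o.mem_nhds hyV) hV'V, hVψ⟩
  · rw [eq_univ_iff_forall]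
    intro x
    have : x ∈ ⋃ i, U i := by rw [hcov]; trivial
    obtain ⟨i, hi⟩ := mem_iUnion.mp this
    obtain ⟨V, hV, a, ha⟩ := hloc i x hi
    refine mem_iUnion.mpr ⟨e (i, a), ?_⟩
    rw [Equiv.symm_apply_apply]
    exact ⟨hi, V, hV, ha⟩
  · intro a x hx
    exact hx.1
  · rintro a b ⟨x, ⟨hxa, V₁, hV₁, h₁⟩, ⟨hxb, V₂, hV₂, h₂⟩⟩
    have hN : V₁ ∩ V₂ ∩ Metric.ball x.1 δ ∈ 𝓝 x.1 :=
      inter_mem (inter_mem hV₁ hV₂) (Metric.ball_mem_nhds _ hδ)
    obtain ⟨y, ⟨u, rfl⟩, ⟨hu₁, hu₂⟩, hu₃⟩ := C.ι_dense.inter_nhds_nonempty hN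
    have eu : x ∈ U (lab u) := hlab u x (Metric.mem_ball.mp hu₃)
    have h3 := hdc _ _ _ ⟨x, ⟨hxa, hxb⟩, eu⟩
    show (e.symm a).2 + (e.symm b).2 = d (e.symm a).1 (e.symm b).1
    rw [← h₁ u hu₁, ← h₂ u hu₂]
    have h4 : ∀ p q r s : ZMod 2, r + q + s = 0 → (p + s) + (p + q) = r := by decide
    exact h4 _ _ _ _ h3

/-- name used in helper209's skeleton -/
theorem Cpt.cech0 (C : Cpt 𝔖) (hG : GroupHyp 𝔖) (hC : C.Good) : Cech0 C.B := s5_cech0 C hG hC

end Claimed.Agent.R309
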