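import Claimed.Agent.R309.S5.Thin

/-!
# Row 309, package **S5-Sign**: Proposition 5.2 (`topo:dimension`): `Dim1 B`

Statements: helper209.  Proofs: helper29.  Helper lemmas with prefix `s5s_`.  Black boxes: `S5/Top.lean` (`dim1_of_walls`, `Thin.preimage_val`), `S5/Thin.lean` (`Cpt.thin_wall_of_tame`, `Cpt.isClosed_wall`),
helper146's `S34/Graph.lean` (`not_mem_cut_iff`), `S34/L2.lean` (`ae_exists_mem_Ioo`), `S34/Bdry.lean`.

The sign of `F_j - t` near a boundary point is encoded by two open subsets `Up j t`, `Dn j t` of `X`.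

Proof of `Cpt.dim1`: apply `dim1_of_walls` to `↥C.B`.  Given `η`, the compact set `{(x,y) | η ≤ dist x y}` of `X × X` is covered by the open sets `{F_j x < t < F_j y} ∪ {F_j y < t < F_j x}`, `t` a good level of
`F_j` (the coordinates separate points, good levels are dense); a finite subcover gives the finitely many walls (no grid, no tail estimate).
-/

set_option autoImplicit false

namespace Claimed.Agent.R309

open Filter Topology Set Metric MeasureTheory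

variable {Γ : Type} [Group Γ] {𝔖 : GenSet Γ}

/-- points near which all vertices satisfy `t < F_j` -/
def Cpt.Up (C : Cpt 𝔖) (j : ℕ) (t : ℝ) : Set C.X := {x | ∃ W ∈ 𝓝 x, ∀ v : Γ, C.ι v ∈ W → t < C.coord j (C.ι v)}

/-- points near which all vertices satisfy `F_j < t` -/
def Cpt.Dn (C : Cpt 𝔖) (j : ℕ) (t : ℝ) : Set C.X := {x | ∃ W ∈ 𝓝 x, ∀ v : Γ, C.ι v ∈ W → C.coord j (C.ι v) < t}

theorem Cpt.isOpen_Up (C : Cpt 𝔖) (j : ℕ) (t : ℝ) : IsOpen (C.Up j t) := by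
  rw [isOpen_iff_mem_nhds]
  rintro x ⟨W, hW, h⟩
  obtain ⟨W', hW'W, hW'o, hxW'⟩ := _root_.mem_nhds_iff.mp hW
  refine mem_of_superset (hW'o.mem_nhds hxW') fun y hy => ?_
  exact ⟨W, mem_of_superset (hW'o.mem_nhds hy) hW'W, h⟩

theorem Cpt.isOpen_Dn (C : Cpt 𝔖) (j : ℕ) (t : ℝ) : IsOpen (C.Dn j t) := by
  rw [isOpen_iff_mem_nhds]
  rintro x ⟨W, hW, h⟩
  obtain ⟨W', hW'W, hW'o, hxW'⟩ := _root_.mem_nhds_iff.mp hW
  refine mem_of_superset (hW'o.mem_nhds hxW') fun y hy => ?_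
  exact ⟨W, mem_of_superset (hW'o.mem_nhds hy) hW'W, h⟩

/-- (`ι_dense`: every nonempty open set contains a vertex) -/
theorem Cpt.disjoint_Up_Dn (C : Cpt 𝔖) (j : ℕ) (t : ℝ) : Disjoint (C.Up j t) (C.Dn j t) := by
  rw [Set.disjoint_left]
  rintro x ⟨W, hW, h⟩ ⟨W', hW', h'⟩
  obtain ⟨y, ⟨v, rfl⟩, hv, hv'⟩ := C.ι_dense.inter_nhds_nonempty (inter_mem hW hW')
  exact lt_asymm (h v hv) (h' v hv')

/-- (`x` is a limit of vertices, `coord_cont`) -/
theorem Cpt.le_coord_of_Up (C : Cpt 𝔖) {j : ℕ} {t : ℝ} {x : C.X} (hx : x ∈ C.Up j t) : t ≤ C.coord j x := by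
  obtain ⟨W, hW, h⟩ := hx
  by_contra hlt
  rw [not_le] at hlt
  have h1 : {y | C.coord j y < t} ∈ 𝓝 x := (isOpen_lt (C.coord_cont j) continuous_const).mem_nhds hlt
  obtain ⟨y, ⟨v, rfl⟩, hv, hv'⟩ := C.ι_dense.inter_nhds_nonempty (inter_mem hW h1)
  exact lt_asymm (h v hv) hv'

theorem Cpt.coord_le_of_Dn (C : Cpt 𝔖) {j : ℕ} {t : ℝ} {x : C.X} (hx : x ∈ C.Dn j t) : C.coord j x ≤ t := by
  obtain ⟨W, hW, h⟩ := hx
  by_contra hlt
  rw [not_le] at hlt
  have h1 : {y | t < C.coord j y} ∈ 𝓝 x := (isOpen_lt continuous_const (C.coord_cont j)).mem_nhds hlt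
  obtain ⟨y, ⟨v, rfl⟩, hv, hv'⟩ := C.ι_dense.inter_nhds_nonempty (inter_mem hW h1)
  exact lt_asymm (h v hv) hv'

/-- **the sign is defined off the wall.** -/
theorem Cpt.mem_Up_or_Dn (C : Cpt 𝔖) (hnp : C.NearPath) {j : ℕ} {t : ℝ} (ht : Regular (fun v => C.coord j (C.ι v)) t)
    {x : C.X} (hx : x ∈ C.B) (hxw : x ∉ C.wall (cut 𝔖 (fun v => C.coord j (C.ι v)) t)) : x ∈ C.Up j t ∪ C.Dn j t := by
  set F : Γ → ℝ := fun v => C.coord j (C.ι v) with hF
  have hxc : x ∉ closure (C.ι '' ends (cut 𝔖 F t)) := fun h => hxw ⟨h, hx⟩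
  have hW : (closure (C.ι '' ends (cut 𝔖 F t)))ᶜ ∈ 𝓝 x := isClosed_closure.isOpen_compl.mem_nhds hxc
  obtain ⟨V, hV, _, hpath⟩ := hnp x hx _ hW
  have hconst : ∀ u v : Γ, C.ι u ∈ V → C.ι v ∈ V → (F u < t ↔ F v < t) := by
    intro u v hu hv
    have := hpath u v hu hv
    clear hv
    induction this with
    | refl => exact Iff.rfl
    | @tail a b _ hstep ih =>
      obtain ⟨ha, _, s, hs, rfl⟩ := hstep
      refine ih.trans ?_
      have hnot : ((a, ⟨s, hs⟩) : 𝔖.Edge) ∉ cut 𝔖 F t := by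
        intro hmem
        exact ha (subset_closure ⟨a, ⟨_, hmem, Or.inl rfl⟩, rfl⟩)
      exact (not_mem_cut_iff ht _).mp hnot
  obtain ⟨y, ⟨u₀, rfl⟩, hu₀⟩ := C.ι_dense.inter_nhds_nonempty hV
  by_cases h0 : F u₀ < t
  · exact Or.inr ⟨V, hV, fun v hv => (hconst u₀ v hu₀ hv).mp h0⟩
  · refine Or.inl ⟨V, hV, fun v hv => ?_⟩
    have h1 : ¬ F v < t := fun h => h0 ((hconst u₀ v hu₀ hv).mpr h)
    exact lt_of_le_of_ne (not_lt.mp h1) (ht v).symm

/-- finitely many good levels separate all pairs of points at distance `≥ η` -/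
theorem s5s_tests (C : Cpt 𝔖) (hC : C.Good) (η : ℝ) (hη : 0 < η) :
    ∃ T : Finset (ℕ × ℝ),
      (∀ p ∈ T, Regular (fun v => C.coord p.1 (C.ι v)) p.2 ∧
        C.Tame (cut 𝔖 (fun v => C.coord p.1 (C.ι v)) p.2)) ∧
      ∀ x y : C.X, η ≤ dist x y → ∃ p ∈ T, (C.coord p.1 x < p.2 ∧ p.2 < C.coord p.1 y) ∨
        (C.coord p.1 y < p.2 ∧ p.2 < C.coord p.1 x) := by
  classical
  set good : ℕ × ℝ → Prop := fun p => Regular (fun v => C.coord p.1 (C.ι v)) p.2 ∧
        C.Tame (cut 𝔖 (fun v => C.coord p.1 (C.ι v)) p.2) with hgood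
  have hK : IsCompact {q : C.X × C.X | η ≤ dist q.1 q.2} :=
    (isClosed_le continuous_const continuous_dist).isCompact
  set O : {p : ℕ × ℝ // good p} → Set (C.X × C.X) := fun p =>
    {q | C.coord p.1.1 q.1 < p.1.2 ∧ p.1.2 < C.coord p.1.1 q.2} ∪
    {q | C.coord p.1.1 q.2 < p.1.2 ∧ p.1.2 < C.coord p.1.1 q.1} with hO
  have hOo : ∀ p, IsOpen (O p) := by
    intro p
    have c1 : Continuous fun q : C.X × C.X => C.coord p.1.1 q.1 := (C.coord_cont _).comp continuous_fst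
    have c2 : Continuous fun q : C.X × C.X => C.coord p.1.1 q.2 := (C.coord_cont _).comp continuous_snd
    exact ((isOpen_lt c1 continuous_const).inter (isOpen_lt continuous_const c2)).union
      ((isOpen_lt c2 continuous_const).inter (isOpen_lt continuous_const c1))
  have hlevel : ∀ (j : ℕ) (a b : ℝ), 0 ≤ a → a < b → b ≤ 1 → ∃ t, a < t ∧ t < b ∧ good (j, t) := by
    intro j a b ha hab hb
    obtain ⟨t, ht, hgt⟩ := ae_exists_mem_Ioo (hC.tame j) hab
    exact ⟨t, ht.1, ht.2, hgt ⟨lt_of_le_of_lt ha ht.1, lt_of_lt_of_le ht.2 hb⟩⟩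
  have hcov : {q : C.X × C.X | η ≤ dist q.1 q.2} ⊆ ⋃ p, O p := by
    rintro ⟨x, y⟩ hq
    have hne : x ≠ y := by
      rintro rfl
      have : η ≤ dist x x := hq
      rw [dist_self] at this
      linarith
    obtain ⟨j, hj⟩ := C.exists_coord_ne hne
    rcases lt_or_gt_of_ne hj with h | h
    · obtain ⟨t, h1, h2, h3⟩ := hlevel j _ _ (C.coord_mem j x).1 h (C.coord_mem j y).2
      exact mem_iUnion.mpr ⟨⟨(j, t), h3⟩, Or.inl ⟨h1, h2⟩⟩
    · obtain ⟨t, h1, h2, h3⟩ := hlevel j _ _ (C.coord_mem j y).1 h (C.coord_mem j x).2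
      exact mem_iUnion.mpr ⟨⟨(j, t), h3⟩, Or.inr ⟨h1, h2⟩⟩
  obtain ⟨s, hs⟩ := hK.elim_finite_subcover O hOo hcov
  refine ⟨s.image Subtype.val, ?_, ?_⟩
  · intro p hp
    obtain ⟨p', _, rfl⟩ := Finset.mem_image.mp hp
    exact p'.2
  · intro x y hxy
    obtain ⟨p, hp, hq⟩ := mem_iUnion₂.mp (hs (show (x, y) ∈ {q : C.X × C.X | η ≤ dist q.1 q.2} from hxy))
    exact ⟨p.1, Finset.mem_image_of_mem _ hp, hq⟩

/-- **Proposition 5.2** -/
theorem Cpt.dim1 (C : Cpt 𝔖) (hC : C.Good) : Dim1 C.B := by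
  classical
  have i1 : CompactSpace C.B := isCompact_iff_compactSpace.mp C.isClosed_B.isCompact
  apply dim1_of_walls
  intro η hη
  obtain ⟨T, hT, hsep⟩ := s5s_tests C hC η hη
  set e := T.equivFin with he
  set p : Fin T.card → ℕ × ℝ := fun a => (e.symm a).1 with hp
  have hpT : ∀ a, p a ∈ T := fun a => (e.symm a).2
  refine ⟨T.card,
    fun a => Subtype.val ⁻¹' C.wall (cut 𝔖 (fun v => C.coord (p a).1 (C.ι v)) (p a).2),
    fun a => Subtype.val ⁻¹' C.Up (p a).1 (p a).2, fun a => Subtype.val ⁻¹' C.Dn (p a).1 (p a).2, ?_, ?_⟩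
  · intro a
    refine ⟨(C.isClosed_wall _).preimage continuous_subtype_val,
      (C.thin_wall_of_tame _ (hT _ (hpT a)).2).preimage_val _,
      (C.isOpen_Up _ _).preimage continuous_subtype_val,
      (C.isOpen_Dn _ _).preimage continuous_subtype_val,
      (C.disjoint_Up_Dn _ _).preimage _, ?_⟩
    intro x hx
    exact C.mem_Up_or_Dn hC.nearPath (hT _ (hpT a)).1 x.2 hx
  · intro x y hside
    by_contra hlt
    rw [not_le] at hlt
    obtain ⟨q, hq, hqs⟩ := hsep x.1 y.1 (by rw [Subtype.dist_eq] at hlt; exact hlt.le)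
    have hqa : p (e ⟨q, hq⟩) = q := by simp only [hp, Equiv.symm_apply_apply]
    have := hside (e ⟨q, hq⟩)
    simp only [hqa, mem_preimage] at this
    rcases this with ⟨hx, hy⟩ | ⟨hx, hy⟩
    · have h1 := C.le_coord_of_Up hx
      have h2 := C.le_coord_of_Up hy
      rcases hqs with h | h <;> linarith [h.1, h.2]
    · have h1 := C.coord_le_of_Dn hx
      have h2 := C.coord_le_of_Dn hy
      rcases hqs with h | h <;> linarith [h.1, h.2]

end Claimed.Agent.R309
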