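import Claimed.Agent.R309.S5.Top
import Claimed.Agent.R309.S34.Dyn1

/-!
# Row 309, package **S5-Thin**: Lemma 5.1 (`topo:thin-walls`): the boundary accumulation set of a tame cut is thin

Statements: helper209.  Proofs: helper29.  Helper lemmas with prefix `s5w_`.  Black boxes: `S5/Top.lean` (`Thin`), helper146's `S34/Graph.lean` (`dual_delete_finite`, `DualPathIn`), `S34/L2.lean`,
`S34/Bdry.lean` (basic facts on `Cpt`), `S34/Dyn1.lean` (`Cpt.dual_diam`, `Cpt.nearLen_nonneg`, `Cpt.nearLen_eq`).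
-/

set_option autoImplicit false

namespace Claimed.Agent.R309

open Filter Topology Set Metric

variable {Γ : Type} [Group Γ] {𝔖 : GenSet Γ}

/-- the endpoints of a set of edges -/
def ends (D : Set 𝔖.Edge) : Set Γ := {v | ∃ e ∈ D, v = esrc e ∨ v = etgt e}

/-- `E(F,t)` for `D = S(F,t)`: the accumulation set in the boundary of the endpoints of `D` -/
def Cpt.wall (C : Cpt 𝔖) (D : Set 𝔖.Edge) : Set C.X := closure (C.ι '' ends D) ∩ C.B

theorem ends_mono {D D' : Set 𝔖.Edge} (h : D ⊆ D') : ends D ⊆ ends D' := by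
  rintro v ⟨e, he, hv⟩
  exact ⟨e, h he, hv⟩

theorem ends_iUnion {κ : Type} (D : κ → Set 𝔖.Edge) : ends (⋃ i, D i) = ⋃ i, ends (D i) := by
  ext v
  constructor
  · rintro ⟨e, he, hv⟩
    obtain ⟨i, hi⟩ := mem_iUnion.mp he
    exact mem_iUnion.mpr ⟨i, e, hi, hv⟩
  · intro hv
    obtain ⟨i, e, he, hv⟩ := mem_iUnion.mp hv
    exact ⟨e, mem_iUnion.mpr ⟨i, he⟩, hv⟩

theorem Cpt.isClosed_wall (C : Cpt 𝔖) (D : Set 𝔖.Edge) : IsClosed (C.wall D) :=
  isClosed_closure.inter C.isClosed_B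

theorem Cpt.wall_mono (C : Cpt 𝔖) {D D' : Set 𝔖.Edge} (h : D ⊆ D') : C.wall D ⊆ C.wall D' :=
  inter_subset_inter_left _ (closure_mono (image_mono (ends_mono h)))

theorem Cpt.wall_iUnion_fin (C : Cpt 𝔖) {n : ℕ} (D : Fin n → Set 𝔖.Edge) : C.wall (⋃ i, D i) = ⋃ i, C.wall (D i) := by
  unfold Cpt.wall
  rw [ends_iUnion, image_iUnion, closure_iUnion_of_finite, iUnion_inter]

theorem s5w_ends_finite {D : Set 𝔖.Edge} (h : D.Finite) : (ends D).Finite := by
  refine ((h.image esrc).union (h.image etgt)).subset ?_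
  rintro v ⟨e, he, rfl | rfl⟩
  · exact Or.inl ⟨e, he, rfl⟩
  · exact Or.inr ⟨e, he, rfl⟩

/-- a finite set of edges has empty wall -/
theorem Cpt.wall_finite (C : Cpt 𝔖) {D : Set 𝔖.Edge} (h : D.Finite) : C.wall D = ∅ := by
  unfold Cpt.wall
  rw [((s5w_ends_finite h).image C.ι).isClosed.closure_eq, eq_empty_iff_forall_notMem]
  rintro x ⟨⟨v, _, rfl⟩, hx⟩
  exact C.ι_not_mem_B v hx

theorem s5w_lam_le (C : Cpt 𝔖) (e : 𝔖.Edge) : C.lam e ≤ C.nearLen 1 e := by
  rw [C.nearLen_eq, etr_one]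
  exact le_nearSum C.lam_nonneg (Near.refl e)

/-- diameter of the endpoint set of a dually connected set -/
theorem Cpt.diam_ends_le (C : Cpt 𝔖) (K : Set 𝔖.Edge) (hK : DuallyConnected K) (hs : Summable fun e : K => C.nearLen 1 e.1) :
    diam (closure (C.ι '' ends K)) ≤ 3 * ∑' e : K, C.nearLen 1 e.1 := by
  rw [diam_closure]
  have h0 : 0 ≤ ∑' e : K, C.nearLen 1 e.1 := tsum_nonneg fun e => C.nearLen_nonneg 1 e.1
  have hle : ∀ e (he : e ∈ K), C.nearLen 1 e ≤ ∑' e : K, C.nearLen 1 e.1 := fun e he =>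
    hs.le_tsum (⟨e, he⟩ : K) fun e' _ => C.nearLen_nonneg 1 e'.1
  have hend : ∀ e ∈ K, ∀ v, (v = esrc e ∨ v = etgt e) →
      dist (C.ι v) (C.ι (esrc e)) ≤ ∑' e : K, C.nearLen 1 e.1 := by
    rintro e he v (rfl | rfl)
    · rw [dist_self]; exact h0
    · rw [dist_comm]
      exact (s5w_lam_le C e).trans (hle e he)
  refine diam_le_of_forall_dist_le (by positivity) ?_
  rintro _ ⟨u, ⟨e, he, hu⟩, rfl⟩ _ ⟨v, ⟨e', he', hv⟩, rfl⟩
  have h1 := hend e he u hu
  have h2 := hend e' he' v hv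
  have h3 := C.dual_diam 1 K hK hs e e' he he'
  rw [one_mul, one_mul] at h3
  rw [dist_comm] at h2
  have h4 := dist_triangle4 (C.ι u) (C.ι (esrc e)) (C.ι (esrc e')) (C.ι v)
  linarith

/-- a dual path starting in the class of `r` stays in the class -/
theorem s5w_path_in_class {D : Set 𝔖.Edge} {r e e' : 𝔖.Edge} (hr : DualPathIn D r e)
    (h : DualPathIn D e e') :
    DualPathIn {x | DualPathIn D r x} e e' ∧ DualPathIn D r e' := by
  induction h with
  | refl => exact ⟨Relation.ReflTransGen.refl, hr⟩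
  | @tail a b _ hab ih =>
    have hb : DualPathIn D r b := Relation.ReflTransGen.tail ih.2 hab
    exact ⟨Relation.ReflTransGen.tail ih.1 ⟨ih.2, hb, hab.2.2⟩, hb⟩

theorem s5w_class_dual (D : Set 𝔖.Edge) (r : 𝔖.Edge) : DuallyConnected {x | DualPathIn D r x} := by
  intro e he e' he'
  exact (s5w_path_in_class he ((DualPathIn.symm he).trans he')).1

theorem s5w_class_subset {D : Set 𝔖.Edge} {r : 𝔖.Edge} (hr : r ∈ D) : {x | DualPathIn D r x} ⊆ D := by
  intro x hx
  induction hx with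
  | refl => exact hr
  | tail _ hab _ => exact hab.2.1

theorem s5w_class_eq {D : Set 𝔖.Edge} {r r' x : 𝔖.Edge} (h : DualPathIn D r x) (h' : DualPathIn D r' x) :
    {y | DualPathIn D r y} = {y | DualPathIn D r' y} := by
  ext y
  exact ⟨fun hy => h'.trans ((DualPathIn.symm h).trans hy), fun hy => h.trans ((DualPathIn.symm h').trans hy)⟩

theorem Cpt.thin_wall_of_dual (C : Cpt 𝔖) (P : Set 𝔖.Edge) (hP : DuallyConnected P)
    (hs : Summable fun e : P => C.nearLen 1 e.1) : Thin (C.wall P) := by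
  classical
  apply s5t_thin_of_indexed
  intro ε hε
  set f : 𝔖.Edge → ℝ := fun e => C.nearLen 1 e with hf
  have hf0 : ∀ e, 0 ≤ f e := fun e => C.nearLen_nonneg 1 e
  have hF : Summable (P.indicator f) := summable_subtype_iff_indicator.mp hs
  have hsub : ∀ A : Set 𝔖.Edge, A ⊆ P → Summable (A.indicator f) := by
    intro A hA
    have := hF.indicator A
    rwa [indicator_indicator, inter_eq_left.mpr hA] at this
  obtain ⟨s, hs'⟩ := ((tendsto_tsum_compl_atTop_zero (P.indicator f)).eventually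
    (Iio_mem_nhds (show (0 : ℝ) < ε / 3 by positivity))).exists
  have hμ : ∑' x, (P \ (s : Set 𝔖.Edge)).indicator f x < ε / 3 := by
    have h1 : ∑' a : {x // x ∉ s}, P.indicator f a.1 =
        ∑' x, ((s : Set 𝔖.Edge)ᶜ).indicator (P.indicator f) x :=
      tsum_subtype ((s : Set 𝔖.Edge)ᶜ) (P.indicator f)
    rw [indicator_indicator, inter_comm, ← sdiff_eq] at h1
    rw [← h1]
    exact hs'
  obtain ⟨R, hR, hRcov⟩ := dual_delete_finite P hP (s : Set 𝔖.Edge) s.finite_toSet
  set D : Set 𝔖.Edge := P \ (s : Set 𝔖.Edge) with hD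
  set cls : 𝔖.Edge → Set 𝔖.Edge := fun r => {x | DualPathIn D r x} with hcls
  refine ⟨Set 𝔖.Edge, R.image cls, fun K => closure (C.ι '' ends K), ?_, ?_⟩
  · -- cover
    rintro x ⟨hx, hxB⟩
    have h1 : ends P ⊆ ends (s : Set 𝔖.Edge) ∪ ⋃ K ∈ R.image cls, ends K := by
      rintro v ⟨e, he, hv⟩
      by_cases hes : e ∈ (s : Set 𝔖.Edge)
      · exact Or.inl ⟨e, hes, hv⟩
      · obtain ⟨r, hr, hre⟩ := hRcov e ⟨he, hes⟩
        exact Or.inr (mem_iUnion₂.mpr ⟨cls r, Finset.mem_image_of_mem _ hr, e, hre, hv⟩)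
    have h2 := closure_mono (image_mono h1) hx
    rw [image_union, closure_union, image_iUnion₂, Finset.closure_biUnion] at h2
    rcases h2 with h2 | h2
    · exfalso
      have : x ∈ C.wall (s : Set 𝔖.Edge) := ⟨h2, hxB⟩
      rw [C.wall_finite s.finite_toSet] at this
      exact this
    · exact h2
  · -- sum of the diameters
    have hclsD : ∀ K ∈ R.image cls, K ⊆ D := by
      intro K hK
      obtain ⟨r, hr, rfl⟩ := Finset.mem_image.mp hK
      exact s5w_class_subset (hR hr)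
    have hDP : D ⊆ P := sdiff_subset
    have hdiam : ∀ K ∈ R.image cls, diam (closure (C.ι '' ends K)) ≤ 3 * ∑' x, K.indicator f x := by
      intro K hK
      have hKs := hsub K ((hclsD K hK).trans hDP)
      obtain ⟨r, hr, rfl⟩ := Finset.mem_image.mp hK
      have := C.diam_ends_le (cls r) (s5w_class_dual D r) (summable_subtype_iff_indicator.mpr hKs)
      rwa [tsum_subtype (cls r) f] at this
    have hsum : ∑ K ∈ R.image cls, ∑' x, K.indicator f x ≤ ∑' x, D.indicator f x := by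
      rw [← Summable.tsum_finsetSum fun K hK => hsub K ((hclsD K hK).trans hDP)]
      refine Summable.tsum_le_tsum ?_
        (summable_sum fun K hK => hsub K ((hclsD K hK).trans hDP)) (hsub D hDP)
      intro x
      by_cases hx : ∃ K₀ ∈ R.image cls, x ∈ K₀
      · obtain ⟨K₀, hK₀, hxK₀⟩ := hx
        rw [Finset.sum_eq_single K₀, indicator_of_mem hxK₀, indicator_of_mem (hclsD K₀ hK₀ hxK₀)]
        · intro K hK hne
          apply indicator_of_notMem
          intro hxK
          apply hne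
          obtain ⟨r, _, rfl⟩ := Finset.mem_image.mp hK
          obtain ⟨r', _, rfl⟩ := Finset.mem_image.mp hK₀
          exact s5w_class_eq hxK hxK₀
        · intro h
          exact absurd hK₀ h
      · rw [Finset.sum_eq_zero]
        · exact indicator_nonneg (fun e _ => hf0 e) x
        · intro K hK
          exact indicator_of_notMem (fun h => hx ⟨K, hK, h⟩) _
    calc ∑ K ∈ R.image cls, diam (closure (C.ι '' ends K))
        ≤ ∑ K ∈ R.image cls, 3 * ∑' x, K.indicator f x := Finset.sum_le_sum hdiam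
      _ = 3 * ∑ K ∈ R.image cls, ∑' x, K.indicator f x := by rw [Finset.mul_sum]
      _ ≤ 3 * ∑' x, D.indicator f x := by linarith
      _ < ε := by linarith

/-- **Lemma 5.1** -/
theorem Cpt.thin_wall_of_tame (C : Cpt 𝔖) (D : Set 𝔖.Edge) (hD : C.Tame D) : Thin (C.wall D) := by
  obtain ⟨n, P, hDP, hP⟩ := hD
  refine Thin.mono ?_ (C.wall_mono hDP)
  rw [C.wall_iUnion_fin]
  exact thin_iUnion_fin _ fun i => C.thin_wall_of_dual (P i) (hP i).1 (hP i).2

end Claimed.Agent.R309
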