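import Claimed.Agent.R309.Cover

/-!
# Row 309, package **S5-Top**: thin sets and covering dimension (the general topology of Proposition 5.2 `topo:dimension`)

Statements: helper209 (sub-captain S5, S8, S9).  Proofs: helper29.  Helper lemmas with prefix `s5t_`.  Pure metric topology; imports only `Defs.lean` (`Dim1`) and `Cover.lean`.

`Thin E` replaces "`E` has one dimensional Hausdorff measure zero": for every `ε` a finite cover with sum of diameters `< ε`.  (All spaces are compact, so `Metric.diam` is honest.)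
-/

set_option autoImplicit false

namespace Claimed.Agent.R309

open Filter Topology Set Metric

/-- finite covers with arbitrarily small sum of diameters -/
def Thin {X : Type} [PseudoMetricSpace X] (E : Set X) : Prop :=
  ∀ ε : ℝ, 0 < ε → ∃ 𝒞 : Finset (Set X), E ⊆ ⋃ A ∈ 𝒞, A ∧ ∑ A ∈ 𝒞, diam A < ε

theorem Thin.mono {X : Type} [PseudoMetricSpace X] {E E' : Set X} (h : Thin E) (hE : E' ⊆ E) : Thin E' := by
  intro ε hε
  obtain ⟨𝒞, h1, h2⟩ := h ε hε
  exact ⟨𝒞, hE.trans h1, h2⟩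

theorem thin_empty {X : Type} [PseudoMetricSpace X] : Thin (∅ : Set X) := by
  intro ε hε
  exact ⟨∅, empty_subset _, by simpa using hε⟩

/-- thinness from an indexed family -/
theorem s5t_thin_of_indexed {X : Type} [PseudoMetricSpace X] {E : Set X}
    (h : ∀ ε : ℝ, 0 < ε → ∃ (κ : Type) (s : Finset κ) (A : κ → Set X), E ⊆ ⋃ i ∈ s, A i ∧
      ∑ i ∈ s, diam (A i) < ε) : Thin E := by
  classical
  intro ε hε
  obtain ⟨κ, s, A, h1, h2⟩ := h ε hε
  refine ⟨s.image A, ?_, ?_⟩
  · intro x hx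
    obtain ⟨i, hi, hxi⟩ := mem_iUnion₂.mp (h1 hx)
    exact mem_iUnion₂.mpr ⟨A i, Finset.mem_image_of_mem A hi, hxi⟩
  · exact (Finset.sum_image_le_of_nonneg (fun _ _ => diam_nonneg)).trans_lt h2

/-- (`ε/2` each) -/
theorem Thin.union {X : Type} [PseudoMetricSpace X] {E E' : Set X} (h : Thin E) (h' : Thin E') : Thin (E ∪ E') := by
  classical
  intro ε hε
  obtain ⟨𝒞, h1, h2⟩ := h (ε / 2) (half_pos hε)
  obtain ⟨𝒞', h1', h2'⟩ := h' (ε / 2) (half_pos hε)
  refine ⟨𝒞 ∪ 𝒞', ?_, ?_⟩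
  · rintro x (hx | hx)
    · obtain ⟨A, hA, hxA⟩ := mem_iUnion₂.mp (h1 hx)
      exact mem_iUnion₂.mpr ⟨A, Finset.mem_union_left _ hA, hxA⟩
    · obtain ⟨A, hA, hxA⟩ := mem_iUnion₂.mp (h1' hx)
      exact mem_iUnion₂.mpr ⟨A, Finset.mem_union_right _ hA, hxA⟩
  · have h3 := Finset.sum_union_inter (s₁ := 𝒞) (s₂ := 𝒞') (f := fun A : Set X => diam A)
    have h4 : 0 ≤ ∑ A ∈ 𝒞 ∩ 𝒞', diam A := Finset.sum_nonneg fun _ _ => diam_nonneg
    linarith

theorem thin_iUnion_fin {X : Type} [PseudoMetricSpace X] {n : ℕ} (E : Fin n → Set X) (h : ∀ i, Thin (E i)) : Thin (⋃ i, E i) := by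
  induction n with
  | zero =>
    have : (⋃ i, E i) = ∅ := by
      rw [iUnion_eq_empty]
      exact fun i => i.elim0
    rw [this]
    exact thin_empty
  | succ n ih =>
    have : (⋃ i, E i) = E 0 ∪ ⋃ i : Fin n, E i.succ := by
      ext x
      simp only [mem_iUnion, mem_union]
      constructor
      · rintro ⟨i, hi⟩
        revert hi
        refine Fin.cases (fun hi => Or.inl hi) (fun j hj => Or.inr ⟨j, hj⟩) i
      · rintro (h | ⟨j, hj⟩)
        · exact ⟨0, h⟩
        · exact ⟨j.succ, hj⟩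
    rw [this]
    exact (h 0).union (ih _ fun i => h i.succ)

/-- thinness passes to a subspace (`diam (val ⁻¹' A) ≤ diam A` in a compact space) -/
theorem Thin.preimage_val {X : Type} [MetricSpace X] [CompactSpace X] {E : Set X} (h : Thin E) (S : Set X) :
    Thin (Subtype.val ⁻¹' E : Set S) := by
  apply s5t_thin_of_indexed
  intro ε hε
  obtain ⟨𝒞, h1, h2⟩ := h ε hε
  refine ⟨Set X, 𝒞, fun A => Subtype.val ⁻¹' A, ?_, ?_⟩
  · intro x hx
    obtain ⟨A, hA, hxA⟩ := mem_iUnion₂.mp (h1 hx)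
    exact mem_iUnion₂.mpr ⟨A, hA, hxA⟩
  · refine lt_of_le_of_lt (Finset.sum_le_sum fun A _ => ?_) h2
    refine diam_le_of_forall_dist_le diam_nonneg fun x hx y hy => ?_
    rw [Subtype.dist_eq]
    exact dist_le_diam_of_mem isBounded_of_compactSpace hx hy

/-- small spheres missing a thin set. -/
theorem Thin.exists_sphere {X : Type} [MetricSpace X] [CompactSpace X] {E : Set X} (h : Thin E) (x : X) (η : ℝ) (hη : 0 < η) :
    ∃ r ∈ Ioo 0 η, ∀ y ∈ E, dist y x ≠ r := by
  classical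
  by_contra hcon
  push Not at hcon
  obtain ⟨𝒞, h1, h2⟩ := h η hη
  have hsub : Ioo 0 η ⊆ ⋃ A ∈ 𝒞, (fun y => dist y x) '' A := by
    intro r hr
    obtain ⟨y, hy, hyr⟩ := hcon r hr
    obtain ⟨A, hA, hyA⟩ := mem_iUnion₂.mp (h1 hy)
    exact mem_iUnion₂.mpr ⟨A, hA, y, hyA, hyr⟩
  have hvol : ∀ A : Set X, MeasureTheory.volume ((fun y => dist y x) '' A) ≤ ENNReal.ofReal (diam A) := by
    intro A
    refine (Real.volume_le_diam _).trans ?_
    refine ((LipschitzWith.dist_left x).ediam_image_le A).trans ?_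
    rw [ENNReal.coe_one, one_mul, diam,
      ENNReal.ofReal_toReal (isBounded_of_compactSpace (s := A)).ediam_ne_top]
  have h3 : ENNReal.ofReal η ≤ ENNReal.ofReal (∑ A ∈ 𝒞, diam A) := by
    calc ENNReal.ofReal η = MeasureTheory.volume (Ioo 0 η) := by rw [Real.volume_Ioo, sub_zero]
      _ ≤ MeasureTheory.volume (⋃ A ∈ 𝒞, (fun y => dist y x) '' A) := MeasureTheory.measure_mono hsub
      _ ≤ ∑ A ∈ 𝒞, MeasureTheory.volume ((fun y => dist y x) '' A) :=
          MeasureTheory.measure_biUnion_finset_le _ _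
      _ ≤ ∑ A ∈ 𝒞, ENNReal.ofReal (diam A) := Finset.sum_le_sum fun A _ => hvol A
      _ = ENNReal.ofReal (∑ A ∈ 𝒞, diam A) :=
          (ENNReal.ofReal_sum_of_nonneg fun _ _ => diam_nonneg).symm
  have h4 := (ENNReal.ofReal_le_ofReal_iff (Finset.sum_nonneg fun _ _ => diam_nonneg)).mp h3
  linarith

/-- a compact thin set is covered by finitely many pairwise disjoint small open sets. -/
theorem Thin.exists_disjoint_cover {X : Type} [MetricSpace X] [CompactSpace X] {E : Set X} (h : Thin E) (hE : IsClosed E)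
    (η : ℝ) (hη : 0 < η) :
    ∃ (k : ℕ) (G : Fin k → Set X), (∀ i, IsOpen (G i)) ∧ (∀ i j, i ≠ j → Disjoint (G i) (G j)) ∧
      (∀ i, ∀ x ∈ G i, ∀ y ∈ G i, dist x y ≤ η) ∧ E ⊆ ⋃ i, G i := by
  classical
  have hr : ∀ x : X, ∃ r ∈ Ioo 0 (η / 2), ∀ y ∈ E, dist y x ≠ r := fun x =>
    h.exists_sphere x (η / 2) (half_pos hη)
  choose r hr0 hrE using hr
  obtain ⟨t, ht⟩ := hE.isCompact.elim_finite_subcover (fun x : X => ball x (r x))
    (fun x => isOpen_ball) (fun x _ => mem_iUnion.mpr ⟨x, mem_ball_self (hr0 x).1⟩)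
  set e := t.equivFin with he
  set p : Fin t.card → X := fun i => (e.symm i).1 with hp
  refine ⟨t.card, fun i => ball (p i) (r (p i)) \ ⋃ j ∈ {j | j < i}, closedBall (p j) (r (p j)),
    ?_, ?_, ?_, ?_⟩
  · intro i
    exact isOpen_ball.sdiff ((Set.toFinite {j | j < i}).isClosed_biUnion fun j _ => isClosed_closedBall)
  · have key : ∀ i j : Fin t.card, j < i →
        Disjoint (ball (p i) (r (p i)) \ ⋃ j ∈ {j | j < i}, closedBall (p j) (r (p j)))
          (ball (p j) (r (p j)) \ ⋃ l ∈ {l | l < j}, closedBall (p l) (r (p l))) := by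
      intro i j hji
      rw [Set.disjoint_left]
      rintro y ⟨_, hy⟩ ⟨hy', _⟩
      exact hy (mem_iUnion₂.mpr ⟨j, hji, ball_subset_closedBall hy'⟩)
    intro i j hij
    rcases lt_or_gt_of_ne hij with h' | h'
    · exact (key j i h').symm
    · exact key i j h'
  · rintro i x ⟨hx, _⟩ y ⟨hy, _⟩
    have h1 := mem_ball.mp hx
    have h2 := mem_ball'.mp hy
    have h3 := (hr0 (p i)).2
    have := dist_triangle x (p i) y
    linarith
  · intro y hy
    obtain ⟨x, hx, hyx⟩ := mem_iUnion₂.mp (ht hy)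
    have hne : ({i : Fin t.card | y ∈ ball (p i) (r (p i))} : Set _).Nonempty := by
      refine ⟨e ⟨x, hx⟩, ?_⟩
      show y ∈ ball (p (e ⟨x, hx⟩)) (r (p (e ⟨x, hx⟩)))
      simp only [hp, Equiv.symm_apply_apply]
      exact hyx
    obtain ⟨i, hi, hmin⟩ := WellFounded.has_min (wellFounded_lt (α := Fin t.card)) _ hne
    refine mem_iUnion.mpr ⟨i, hi, ?_⟩
    intro hmem
    obtain ⟨j, hj, hyj⟩ := mem_iUnion₂.mp hmem
    have h1 : y ∉ ball (p j) (r (p j)) := fun h' => hmin j h' hj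
    have h2 : dist y (p j) ≤ r (p j) := mem_closedBall.mp hyj
    have h3 : ¬ dist y (p j) < r (p j) := h1
    exact hrE (p j) y hy (le_antisymm h2 (not_lt.mp h3))

/-- two families of pairwise disjoint small open sets which together cover: `Dim1`. -/
theorem dim1_of_two_families {B : Type} [MetricSpace B] [CompactSpace B]
    (h : ∀ η : ℝ, 0 < η → ∃ (k k' : ℕ) (G : Fin k → Set B) (G' : Fin k' → Set B),
      (∀ i, IsOpen (G i)) ∧ (∀ i j, i ≠ j → Disjoint (G i) (G j)) ∧ (∀ i, ∀ x ∈ G i, ∀ y ∈ G i, dist x y ≤ η) ∧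
      (∀ i, IsOpen (G' i)) ∧ (∀ i j, i ≠ j → Disjoint (G' i) (G' j)) ∧ (∀ i, ∀ x ∈ G' i, ∀ y ∈ G' i, dist x y ≤ η) ∧
      (⋃ i, G i) ∪ (⋃ i, G' i) = univ) : Dim1 B := by
  classical
  apply dim1_of_fintype
  intro n U hU hc
  obtain ⟨δ, hδ, hleb⟩ := lebesgue_number_lemma_of_metric (isCompact_univ (X := B)) hU (by rw [hc])
  obtain ⟨k, k', G, G', hGo, hGd, hGs, hG'o, hG'd, hG's, hcov⟩ := h (δ / 2) (half_pos hδ)
  have small : ∀ A : Set B, (∀ x ∈ A, ∀ y ∈ A, dist x y ≤ δ / 2) → A.Nonempty → ∃ i, A ⊆ U i := by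
    rintro A hA ⟨x, hx⟩
    obtain ⟨i, hi⟩ := hleb x trivial
    refine ⟨i, fun y hy => hi ?_⟩
    rw [mem_ball]
    have := hA y hy x hx
    linarith
  by_cases hB : Nonempty B
  · obtain ⟨x₀⟩ := hB
    have hi₀ : ∃ i₀ : Fin n, True := by
      have : x₀ ∈ ⋃ i, U i := by rw [hc]; trivial
      obtain ⟨i, _⟩ := mem_iUnion.mp this
      exact ⟨i, trivial⟩
    obtain ⟨i₀, _⟩ := hi₀
    have small' : ∀ A : Set B, (∀ x ∈ A, ∀ y ∈ A, dist x y ≤ δ / 2) → ∃ i, A ⊆ U i := by
      intro A hA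
      rcases A.eq_empty_or_nonempty with rfl | hne
      · exact ⟨i₀, empty_subset _⟩
      · exact small A hA hne
    refine ⟨Fin k ⊕ Fin k', inferInstance, Sum.elim G G', ?_, ?_, ?_, ?_⟩
    · rintro (a | a)
      · exact hGo a
      · exact hG'o a
    · rw [← hcov]
      ext x
      simp only [mem_iUnion, mem_union, Sum.exists, Sum.elim_inl, Sum.elim_inr]
    · rintro (a | a)
      · exact small' _ (hGs a)
      · exact small' _ (hG's a)
    · have e1 : ∀ a b : Fin k, a ≠ b → G a ∩ G b = ∅ := fun a b hab => (hGd a b hab).inter_eq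
      have e2 : ∀ a b : Fin k', a ≠ b → G' a ∩ G' b = ∅ := fun a b hab => (hG'd a b hab).inter_eq
      rintro (a | a) (b | b) (c | c) hab hbc hac
      · simp only [Sum.elim_inl]
        rw [e1 a b (fun h => hab (congrArg _ h)), empty_inter]
      · simp only [Sum.elim_inl]
        rw [e1 a b (fun h => hab (congrArg _ h)), empty_inter]
      · simp only [Sum.elim_inl, Sum.elim_inr]
        rw [inter_right_comm, e1 a c (fun h => hac (congrArg _ h)), empty_inter]
      · simp only [Sum.elim_inl, Sum.elim_inr]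
        rw [inter_assoc, e2 b c (fun h => hbc (congrArg _ h)), inter_empty]
      · simp only [Sum.elim_inl, Sum.elim_inr]
        rw [inter_assoc, e1 b c (fun h => hbc (congrArg _ h)), inter_empty]
      · simp only [Sum.elim_inl, Sum.elim_inr]
        rw [inter_right_comm, e2 a c (fun h => hac (congrArg _ h)), empty_inter]
      · simp only [Sum.elim_inr]
        rw [e2 a b (fun h => hab (congrArg _ h)), empty_inter]
      · simp only [Sum.elim_inr]
        rw [e2 a b (fun h => hab (congrArg _ h)), empty_inter]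
  · refine ⟨Empty, inferInstance, fun a => a.elim, fun a => a.elim, ?_, fun a => a.elim,
      fun a => a.elim⟩
    rw [eq_univ_iff_forall]
    exact fun x => absurd ⟨x⟩ hB

/-- **Proposition 5.2, abstract form.**  Walls `E a` (closed, thin) with two open sides `U a`, `D a`; points which are on the same side of all walls are `η`-close. -/
theorem dim1_of_walls {B : Type} [MetricSpace B] [CompactSpace B]
    (h : ∀ η : ℝ, 0 < η → ∃ (n : ℕ) (E U D : Fin n → Set B),
      (∀ a, IsClosed (E a) ∧ Thin (E a) ∧ IsOpen (U a) ∧ IsOpen (D a) ∧ Disjoint (U a) (D a) ∧ (E a)ᶜ ⊆ U a ∪ D a) ∧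
      ∀ x y : B, (∀ a, (x ∈ U a ∧ y ∈ U a) ∨ (x ∈ D a ∧ y ∈ D a)) → dist x y ≤ η) : Dim1 B := by
  classical
  apply dim1_of_two_families
  intro η hη
  obtain ⟨n, E, U, D, hw, hclose⟩ := h η hη
  obtain ⟨k, G, hGo, hGd, hGs, hGc⟩ := (thin_iUnion_fin E fun a => (hw a).2.1).exists_disjoint_cover
    (isClosed_iUnion_of_finite fun a => (hw a).1) η hη
  set e := Fintype.equivFin (Fin n → Bool) with he
  set T : (Fin n → Bool) → Set B := fun τ => ⋂ a, (if τ a then U a else D a) with hT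
  refine ⟨k, Fintype.card (Fin n → Bool), G, fun i => T (e.symm i), hGo, hGd, hGs, ?_, ?_, ?_, ?_⟩
  · intro i
    refine isOpen_iInter_of_finite fun a => ?_
    split_ifs
    · exact (hw a).2.2.1
    · exact (hw a).2.2.2.1
  · intro i j hij
    have hne : e.symm i ≠ e.symm j := fun h' => hij (e.symm.injective h')
    obtain ⟨a, ha⟩ := Function.ne_iff.mp hne
    rw [Set.disjoint_left]
    intro x hx hx'
    have h1 := mem_iInter.mp hx a
    have h2 := mem_iInter.mp hx' a
    have hdis := Set.disjoint_left.mp (hw a).2.2.2.2.1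
    cases h3 : e.symm i a <;> cases h4 : e.symm j a
    · exact ha (h3.trans h4.symm)
    · simp only [h3, h4] at h1 h2
      exact hdis h2 h1
    · simp only [h3, h4] at h1 h2
      exact hdis h1 h2
    · exact ha (h3.trans h4.symm)
  · intro i x hx y hy
    apply hclose
    intro a
    have h1 := mem_iInter.mp hx a
    have h2 := mem_iInter.mp hy a
    cases h3 : e.symm i a
    · simp only [h3] at h1 h2
      exact Or.inr ⟨h1, h2⟩
    · simp only [h3] at h1 h2
      exact Or.inl ⟨h1, h2⟩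
  · rw [eq_univ_iff_forall]
    intro x
    by_cases hx : x ∈ ⋃ a, E a
    · exact Or.inl (hGc hx)
    · right
      have hx' : ∀ a, x ∈ U a ∪ D a := fun a =>
        (hw a).2.2.2.2.2 (fun h' => hx (mem_iUnion.mpr ⟨a, h'⟩))
      refine mem_iUnion.mpr ⟨e (fun a => decide (x ∈ U a)), ?_⟩
      rw [Equiv.symm_apply_apply]
      refine mem_iInter.mpr fun a => ?_
      by_cases hU : x ∈ U a
      · simp only [hU, decide_true, if_true]
      · simp only [hU, decide_false]
        exact (hx' a).resolve_left hU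

end Claimed.Agent.R309
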